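import Vale.Agent.P354ME.Pt

/-!
The integrated energy estimate of a polynomial multiplier.
-/

open scoped ContDiff InnerProductSpace ComplexConjugate
open Complex (I)
open Set Filter Topology MeasureTheory
open Vale.Agent.P354BF Vale.Agent.P354XN Vale.Agent.P354RP Vale.Agent.P354XH
open Vale.Agent.P354XT (Nc lam d1)

noncomputable section

namespace Vale.Agent.P354ME

theorem hp_bd {d : ℕ} {F : Fm} (h : HP d F) (M0 a0 x y : ℝ) : ∃ β, 0 < β ∧ ∀ M a r o n : ℝ,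
    |M - M0| ≤ 1 → |a - a0| ≤ 1 → r ∈ Icc x y → o ^ 2 + n ^ 2 = 1 → |F M a r o n| ≤ β := by
  obtain ⟨β, hβ, H⟩ := upper (((isCompact_Icc (a := M0 - 1) (b := M0 + 1)).prod
    ((isCompact_Icc (a := a0 - 1) (b := a0 + 1)).prod (isCompact_Icc (a := x) (b := y)))).prod
    Ci_compact) h.cont.continuousOn
  refine ⟨β, hβ, fun M a r o n h1 h2 h3 h4 => H ((M, a, r), o, n) ⟨⟨⟨?_, ?_⟩, ⟨?_, ?_⟩, h3⟩, h4⟩⟩ <;>
    linarith [(abs_le.1 h1).1, (abs_le.1 h1).2, (abs_le.1 h2).1, (abs_le.1 h2).2]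

theorem near_box {P : ℝ × ℝ → Prop} {M0 a0 : ℝ} (h : ∀ᶠ p in 𝓝 (M0, a0), P p) :
    ∃ dl, 0 < dl ∧ dl ≤ 1 ∧ ∀ M a, |M - M0| < dl → |a - a0| < dl → P (M, a) := by
  obtain ⟨ε, hε, H⟩ := Metric.eventually_nhds_iff.1 h
  refine ⟨min ε 1, lt_min hε one_pos, min_le_right _ _, fun M a h1 h2 => H ?_⟩
  rw [Prod.dist_eq, Real.dist_eq, Real.dist_eq]
  exact max_lt (h1.trans_le (min_le_left _ _)) (h2.trans_le (min_le_left _ _))

theorem phi_bd {β τ F χ χ1 χ2 μ μ1 μ2 D D1 : ℝ} (hτ : |τ| ≤ β) (hF : |F| ≤ β) (h0 : |χ| ≤ β)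
    (h1 : |χ1| ≤ β) (h2 : |χ2| ≤ β) (m0 : |μ| ≤ β) (m1 : |μ1| ≤ β) (m2 : |μ2| ≤ β) (d0 : |D| ≤ β)
    (d1 : |D1| ≤ β) : -(β + 4 * β ^ 4 + 16 * β ^ 3) ≤ F - 2 * τ * ((χ1 * μ + χ * μ1) * D1 + χ * μ * 2) -
      2 * ((χ2 * μ + χ1 * μ1 + (χ1 * μ1 + χ * μ2)) * D + (χ1 * μ + χ * μ1) * D1) := by
  have hβ := (abs_nonneg _).trans hτ
  have k3 : ∀ {p q s : ℝ}, |p| ≤ β → |q| ≤ β → |s| ≤ β → p * q * s ≤ β ^ 3 := fun {p q s} hp hq hs =>
    calc p * q * s ≤ |p| * |q| * |s| := by rw [← abs_mul, ← abs_mul]; exact le_abs_self _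
      _ ≤ β * β * β := by gcongr
      _ = _ := by ring
  have k4 : ∀ {p q s : ℝ}, |p| ≤ β → |q| ≤ β → |s| ≤ β → τ * p * q * s ≤ β ^ 4 :=
    fun {p q s} hp hq hs =>
    calc τ * p * q * s ≤ |τ| * |p| * |q| * |s| := by
          rw [← abs_mul, ← abs_mul, ← abs_mul]; exact le_abs_self _
      _ ≤ β * β * β * β := by gcongr
      _ = _ := by ring
  linarith [k4 h1 m0 d1, k4 h0 m1 d1, k3 hτ h0 m0, k3 h2 m0 d0, k3 h1 m1 d0, k3 h0 m2 d0,
    k3 h1 m0 d1, k3 h0 m1 d1, (abs_le.1 hF).1]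

theorem lam_le (N : ℕ) {s : ℝ} (hs : 0 ≤ s) :
    (1 + s) ^ (N + 1) ≤ s ^ (N + 1) + (N + 1) * (1 + s) ^ N := by
  induction N with
  | zero => simp [add_comm]
  | succ N ih =>
    have a1 := mul_le_mul_of_nonneg_left ih (show 0 ≤ 1 + s by linarith)
    have a2 : s ^ (N + 1) ≤ (1 + s) ^ (N + 1) := by gcongr; linarith
    push_cast
    calc (1 + s) ^ (N + 1 + 1) = (1 + s) * (1 + s) ^ (N + 1) := by ring
      _ ≤ (1 + s) * (s ^ (N + 1) + (N + 1) * (1 + s) ^ N) := a1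
      _ = s ^ (N + 1 + 1) + s ^ (N + 1) + (N + 1) * (1 + s) ^ (N + 1) := by ring
      _ ≤ _ := by linarith

theorem fin_sc {N : ℕ} {c C Cφ β s χ d u e P Y Gt φ : ℝ} (hc : 0 ≤ c) (hC : 0 ≤ C) (hφ : 0 ≤ Cφ)
    (hs : 0 ≤ s) (h0 : 0 ≤ χ) (h1 : χ ≤ β) (hu : (1 + s) * u ^ 2 ≤ d) (h2 : -Cφ ≤ φ)
    (h : c * (s * d) ≤ s * (-Y + Gt) + C * (s * e ^ 2 + s * u ^ 2 + P ^ 2)) :
    c * (χ * ((1 + s) ^ (N + 1) * d)) + χ * (s ^ (N + 1) * Y) -
      (β * C + Cφ + c * β * (N + 1)) *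
        ((1 + s) ^ (N + 1) * e ^ 2 + (1 + s) ^ N * d + (1 + s) ^ N * P ^ 2) ≤
      s ^ (N + 1) * (χ * Gt + φ * u ^ 2) := by
  have hβ := h0.trans h1
  have hd : 0 ≤ d := le_trans (by positivity) hu
  have p0 : s ^ N ≤ (1 + s) ^ N := by gcongr; linarith
  have p1 : s ^ (N + 1) ≤ (1 + s) ^ (N + 1) := by gcongr; linarith
  have a1 := mul_le_mul_of_nonneg_left h (mul_nonneg h0 (pow_nonneg hs N))
  have a2 : s ^ (N + 1) * u ^ 2 ≤ (1 + s) ^ N * d :=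
    calc s ^ (N + 1) * u ^ 2 ≤ (1 + s) ^ (N + 1) * u ^ 2 := by gcongr
      _ = (1 + s) ^ N * ((1 + s) * u ^ 2) := by ring
      _ ≤ _ := by gcongr
  obtain ⟨E1, e1, q1⟩ : ∃ E, E = (1 + s) ^ (N + 1) * e ^ 2 ∧ 0 ≤ E := ⟨_, rfl, by positivity⟩
  obtain ⟨E2, e2, q2⟩ : ∃ E, E = (1 + s) ^ N * d ∧ 0 ≤ E := ⟨_, rfl, by positivity⟩
  obtain ⟨E3, e3, q3⟩ : ∃ E, E = (1 + s) ^ N * P ^ 2 ∧ 0 ≤ E := ⟨_, rfl, by positivity⟩
  have a3 : χ * C * (s ^ (N + 1) * e ^ 2 + s ^ (N + 1) * u ^ 2 + s ^ N * P ^ 2) ≤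
      β * C * (E1 + E2 + E3) := by
    rw [e1, e2, e3]; gcongr
  have a4 : -φ * (s ^ (N + 1) * u ^ 2) ≤ Cφ * (E1 + E2 + E3) :=
    mul_le_mul (by linarith) (by linarith) (by positivity) hφ
  have a5 : c * χ * ((1 + s) ^ (N + 1) * d) ≤ c * χ * ((s ^ (N + 1) + (N + 1) * (1 + s) ^ N) * d) := by
    have := lam_le N hs
    gcongr
  have a6 : c * χ * (N + 1) * E2 ≤ c * β * (N + 1) * (E1 + E2 + E3) := by
    gcongr; linarith
  have a7 : c * χ * (N + 1) * E2 = c * χ * (N + 1) * ((1 + s) ^ N * d) := by rw [e2]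
  rw [← e1, ← e2, ← e3]
  rw [pow_succ s N] at *
  linarith

theorem int3 {F1 F2 F3 J J1 : ℝ → ℝ} {c C x y : ℝ} (hxy : x ≤ y) (k1 : Continuous F1)
    (k2 : Continuous F2) (k3 : Continuous F3) (dJ : ∀ r, HasDerivAt J (J1 r) r) (h0 : J x = 0)
    (h1 : J y = 0) (h : ∀ r ∈ Icc x y, c * F1 r + F2 r - C * F3 r ≤ J1 r) :
    c * (∫ r in x..y, F1 r) ≤ -(∫ r in x..y, F2 r) + C * ∫ r in x..y, F3 r := by
  have k4 : Continuous fun r => c * F1 r := by fun_prop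
  have k5 : Continuous fun r => c * F1 r + F2 r := by fun_prop
  have k6 : Continuous fun r => C * F3 r := by fun_prop
  have main := intervalIntegral.integral_le_sub_of_hasDeriv_right_of_le hxy
    (fun r _ => (dJ r).continuousAt.continuousWithinAt) (fun r _ => (dJ r).hasDerivWithinAt)
    (φ := fun r => c * F1 r + F2 r - C * F3 r) (k5.sub k6).continuousOn.integrableOn_Icc
    fun r hr => h r (Ioo_subset_Icc_self hr)
  rw [intervalIntegral.integral_sub (k5.intervalIntegrable _ _) (k6.intervalIntegrable _ _),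
    intervalIntegral.integral_add (k4.intervalIntegrable _ _) (k2.intervalIntegrable _ _),
    intervalIntegral.integral_const_mul, intervalIntegral.integral_const_mul] at main
  linarith

variable {S : Type} [NormedAddCommGroup S] [InnerProductSpace ℂ S] {G : Ang S}

theorem cont_ri {u v : ℝ → S} (hu : Continuous u) (hv : Continuous v) :
    Continuous fun r => ri (u r) (v r) := Complex.continuous_re.comp (hu.inner hv)

theorem cont_d1 (hG : G.Is) {u : ℝ → S} (hu : G.Sm u) (om m : ℝ) : Continuous (d1 G om m u) := by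
  have := hu.cont
  have := (hG.sm_deriv hu).cont
  have := fun i => (hu.L i).cont
  unfold d1; fun_prop

theorem cont_Nc (hG : G.Is) {u : ℝ → S} (hu : G.Sm u) {f : ℝ → ℝ} (hf : Continuous f)
    (M a om m : ℝ) : Continuous (Nc G f M a om m u) := by
  have := hu.cont
  have := (hG.sm_deriv hu).cont
  unfold Nc De Kf; fun_prop

theorem HP.contr {d : ℕ} {F : Fm} (h : HP d F) (M a om m : ℝ) : Continuous fun r => F M a r om m :=
  continuous_iff_continuousAt.2 fun r => (h.hd M a r om m).continuousAt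

theorem cont_X {b ch h : Fm} {d e k : ℕ} (hb : HP d b) (hch : HP e ch) (hh : HP k h) (hG : G.Is)
    {u : ℝ → S} (hu : G.Sm u) (M a om m : ℝ) : Continuous fun r =>
      X (b M a r om m) (ch M a r om m) (h M a r om m) (u r) (deriv u r) := by
  have := hu.cont
  have := (hG.sm_deriv hu).cont
  have := HP.contr hb M a om m
  have := HP.contr hch M a om m
  have := HP.contr hh M a om m
  unfold X; fun_prop

variable (G) in
/-- The density of the errors. -/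
def Er (N : ℕ) (f : ℝ × ℝ × ℝ → ℝ) (k τ M a om m : ℝ) (u H : ℝ → S) (r : ℝ) : ℝ :=
  lam om m ^ (N + 1) * ‖H r - Nc G (fun r => f (M, a, r)) M a om m u r‖ ^ 2 +
    lam om m ^ N * d1 G om m u r + lam om m ^ N * ‖G.P τ k M a om m u r‖ ^ 2

theorem d1_nonneg (om m : ℝ) (u : ℝ → S) (r : ℝ) : 0 ≤ d1 G om m u r := by
  unfold d1 lam; positivity

theorem Er_nonneg (N : ℕ) (f : ℝ × ℝ × ℝ → ℝ) (k τ M a om m : ℝ) (u H : ℝ → S) (r : ℝ) :
    0 ≤ Er G N f k τ M a om m u H r := by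
  have := d1_nonneg (G := G) om m u r
  unfold Er lam; positivity

theorem cont_Er (hG : G.Is) {u H : ℝ → S} (hu : G.Sm u) (hH : Continuous H) {f : ℝ × ℝ × ℝ → ℝ}
    (hf : Continuous f) (N : ℕ) (k τ M a om m : ℝ) : Continuous (Er G N f k τ M a om m u H) := by
  have := cont_d1 hG hu om m
  have := cont_Nc hG hu (f := fun r => f (M, a, r)) (by fun_prop) M a om m
  have := (hG.sm_P hu τ k M a om m).cont
  unfold Er; fun_prop

theorem der_J (hG : G.Is) {u : ℝ → S} (hu : G.Sm u) {χ μ F : ℝ → ℝ} (hχ : ContDiff ℝ ∞ χ)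
    (hμ : ContDiff ℝ ∞ μ) (τ M a : ℝ) {r F1 hW : ℝ} (hF : HasDerivAt F F1 r) (e : F r = χ r * hW) :
    HasDerivAt (fun s => 4 * (χ s * μ s) * (De M a s * ri (u s) (deriv u s)) +
      (F s - 2 * τ * (χ s * μ s * (2 * s - 2 * M)) -
        2 * ((deriv χ s * μ s + χ s * deriv μ s) * De M a s)) * ‖u s‖ ^ 2)
      (χ r * Gt τ M a (μ r) hW u r + (F1 - 2 * τ * ((deriv χ r * μ r + χ r * deriv μ r) *
        (2 * r - 2 * M) + χ r * μ r * 2) - 2 * ((deriv (deriv χ) r * μ r + deriv χ r * deriv μ r +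
        (deriv χ r * deriv μ r + χ r * deriv (deriv μ) r)) * De M a r +
        (deriv χ r * μ r + χ r * deriv μ r) * (2 * r - 2 * M))) * ‖u r‖ ^ 2) r := by
  have c1 : HasDerivAt (fun t : ℝ => 2 * t - 2 * M) 2 r := by
    simpa using ((hasDerivAt_id r).const_mul 2).sub_const (2 * M)
  have p := (hd hχ r).mul (hd hμ r)
  have := ((p.const_mul 4).mul ((hdDe M a r).mul
    (der_ri (hu.has r) ((hG.sm_deriv hu).has r)))).add (((hF.sub ((p.mul c1).const_mul (2 * τ))).sub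
    (((((hd (sd hχ) r).mul (hd hμ r)).add ((hd hχ r).mul (hd (sd hμ) r))).mul
      (hdDe M a r)).const_mul 2)).mul (der_sq (hu.has r)))
  refine this.congr_deriv ?_
  simp only [Gt, ri_self, Pi.mul_apply, Pi.sub_apply, Pi.add_apply, e]
  ring

variable {f : ℝ × ℝ × ℝ → ℝ} {b ch h : Fm} {N : ℕ}

/-- The energy estimate on one interval. -/
theorem gen (hb : HP (2 * N + 2) b) (hch : HP (2 * N + 3) ch) (hh : HP (2 * N + 2) h)
    (hf : ContDiff ℝ ∞ f) {M0 a0 x y : ℝ} (B : ℝ) (hxy : x ≤ y)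
    (hp : ∀ r ∈ Icc x y, EPos f b ch M0 a0 r) : ∃ c, 0 < c ∧ ∀ χ : ℝ → ℝ, ContDiff ℝ ∞ χ →
      (∀ r, 0 ≤ χ r) → χ x = 0 → χ y = 0 → ∃ C dl : ℝ, 0 ≤ C ∧ 0 < dl ∧ ∀ M a : ℝ, |M - M0| < dl →
      |a - a0| < dl → ∀ (S : Type) [NormedAddCommGroup S] [InnerProductSpace ℂ S] (G : Ang S),
      G.Is → |G.s| ≤ B → ∀ k τ : ℝ, |k| ≤ B → |τ| ≤ B → ∀ (om m : ℝ) (u H : ℝ → S), G.Md m u →
      Continuous H → c * (∫ r in x..y, χ r * (lam om m ^ (N + 1) * d1 G om m u r)) ≤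
        -(∫ r in x..y, χ r *
          ri (H r) (X (b M a r om m) (ch M a r om m) (h M a r om m) (u r) (deriv u r))) +
        C * ∫ r in x..y, Er G N f k τ M a om m u H r := by
  obtain ⟨c, hc, hU⟩ := unif hb hch hf.continuous hp
  obtain ⟨dl, hdl, dl1, hU⟩ := near_box hU
  obtain ⟨B', hB1, hB2, hB0⟩ : ∃ B', B ≤ B' ∧ |a0| + 1 ≤ B' ∧ 0 ≤ B' :=
    ⟨max B (|a0| + 1), le_max_left _ _, le_max_right _ _, le_max_of_le_right (by positivity)⟩
  refine ⟨c / (1 + B'), by positivity, fun χ hχ χ0 χx χy => ?_⟩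
  have hF : HP (2 * N + 2) fun M a r om m =>
      χ r * (r ^ 2 + a ^ 2 - f (M, a, r) * De M a r) * h M a r om m :=
    hh.smul (k := fun z => χ z.2.2 * (z.2.2 ^ 2 + z.2.1 ^ 2 - f z * De z.1 z.2.1 z.2.2))
      ((sr hχ).mul (ContDiff.sub (by fun_prop) (hf.mul smooth_De)))
  obtain ⟨β1, p1, b1⟩ := hp_bd hb M0 a0 x y
  obtain ⟨β2, p2, b2⟩ := hp_bd hch M0 a0 x y
  obtain ⟨β3, p3, b3⟩ := hp_bd hh M0 a0 x y
  obtain ⟨β4, p4, b4⟩ := hp_bd hF.dr M0 a0 x y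
  obtain ⟨β5, p5, b5⟩ := hp_bd (HP.const smooth_De) M0 a0 x y
  obtain ⟨β6, p6, b6⟩ := hp_bd (HP.const (c := fun z => 2 * z.2.2 - 2 * z.1) (by fun_prop))
    M0 a0 x y
  obtain ⟨β7, p7, b7⟩ := upper (isCompact_Icc (a := x) (b := y)) hχ.continuous.continuousOn
  obtain ⟨β8, p8, b8⟩ := upper (isCompact_Icc (a := x) (b := y)) (cd hχ).continuousOn
  obtain ⟨β9, p9, b9⟩ := upper (isCompact_Icc (a := x) (b := y)) (cd (sd hχ)).continuousOn
  have ci := inv_pos.2 hc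
  obtain ⟨β, hβ⟩ : ∃ β, β = β1 + β2 + β3 + β4 + β5 + β6 + β7 + β8 + β9 + B' + c⁻¹ := ⟨_, rfl⟩
  have β0 : 0 ≤ β := by linarith
  obtain ⟨g1, g2, g3, g4, g5, g6, g7, g8, g9, g0⟩ : β1 ≤ β ∧ β2 ≤ β ∧ β3 ≤ β ∧ β4 ≤ β ∧ β5 ≤ β ∧
      β6 ≤ β ∧ β7 ≤ β ∧ β8 ≤ β ∧ β9 ≤ β ∧ B' ≤ β := by
    refine ⟨?_, ?_, ?_, ?_, ?_, ?_, ?_, ?_, ?_, ?_⟩ <;> linarith
  obtain ⟨C, hC, key⟩ := pt hc β0 hB0
  refine ⟨β * C + (β + 4 * β ^ 4 + 16 * β ^ 3) + c / (1 + B') * β * (N + 1), dl, by positivity,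
    hdl, fun M a hM ha S _ _ G hG hs k τ hk hτ om m u H hu hH => ?_⟩
  obtain ⟨t, o, n, ht, hon, rfl, rfl⟩ := polar om m
  obtain ⟨μ, hμ, hP⟩ := hU M a hM ha o n hon
  have hM1 := hM.le.trans dl1
  have ha1 := ha.le.trans dl1
  have ha2 : |a| ≤ B' := by linarith [abs_sub_abs_le_abs_sub a a0]
  have mi : ∀ q : ℝ, c * q ≤ 1 → q ≤ β := fun q hq => by
    have : q ≤ c⁻¹ := by rw [← one_div, le_div_iff₀' hc]; exact hq
    linarith
  have el : lam (t * o) (t * n) = 1 + t ^ 2 := by unfold lam; linear_combination t ^ 2 * hon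
  have dJ := fun r => (der_J hG hu.1 hχ hμ τ M a (hF.hd M a r o n)
    (hW := h M a r o n * (r ^ 2 + a ^ 2 - f (M, a, r) * De M a r)) (by ring)).const_mul
      ((t ^ 2) ^ (N + 1))
  have z : ∀ r, χ r = 0 → deriv χ r = 0 := fun r hr =>
    IsLocalMin.deriv_eq_zero (Eventually.of_forall fun s => hr ▸ χ0 s)
  refine int3 hxy (hχ.continuous.mul ((cont_d1 hG hu.1 (t * o) (t * n)).const_mul _))
    (hχ.continuous.mul (cont_ri hH (cont_X hb hch hh hG hu.1 M a (t * o) (t * n))))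
    (cont_Er hG hu.1 hH hf.continuous N k τ M a (t * o) (t * n)) dJ (by simp [χx, z x χx])
    (by simp [χy, z y χy]) fun r hr => ?_
  obtain ⟨P, m0, m1, m2⟩ := hP r hr
  have eX : ri (H r) (X (b M a r (t * o) (t * n)) (ch M a r (t * o) (t * n))
      (h M a r (t * o) (t * n)) (u r) (deriv u r)) = (t ^ 2) ^ (N + 1) * ri (H r)
      (X (b M a r o n) (t * ch M a r o n) (h M a r o n) (u r) (deriv u r)) := by
    simp only [X, hb.hom, hch.hom, hh.hom, ri_add, ri_sub, ri_real]; ring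
  rw [Er, eX, el]
  refine fin_sc (by positivity) hC (by positivity) (sq_nonneg t) (χ0 r)
    (((le_abs_self _).trans (b7 r hr)).trans g7) ?_ (phi_bd ((hτ.trans hB1).trans g0)
    ((b4 M a r o n hM1 ha1 hr hon).trans g4) ((b7 r hr).trans g7) ((b8 r hr).trans g8)
    ((b9 r hr).trans g9) (mi _ m0) (mi _ m1) (mi _ m2)
    ((b5 M a r o n hM1 ha1 hr hon).trans g5) ((b6 M a r o n hM1 ha1 hr hon).trans g6))
    (key S G hG (hs.trans hB1) k τ t o n M a r _ _ _ _ (fun r => f (M, a, r)) (hk.trans hB1)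
      (hτ.trans hB1) ha2 ht hon ((b1 M a r o n hM1 ha1 hr hon).trans g1)
      ((b2 M a r o n hM1 ha1 hr hon).trans g2) ((b3 M a r o n hM1 ha1 hr hon).trans g3)
      m0 (EP_iff.1 P) u hu (H r))
  rw [d1, el]
  have : 0 ≤ ∑ i, ‖G.L i (u r)‖ ^ 2 := by positivity
  linarith [sq_nonneg ‖deriv u r‖]

theorem int_cut {F : ℝ → ℝ} (hF : Continuous F) {x y z : ℝ} (hyz : y ≤ z)
    (h : ∀ r, y ≤ r → F r = 0) : ∫ r in x..y, F r = ∫ r in x..z, F r := by
  rw [← intervalIntegral.integral_add_adjacent_intervals (hF.intervalIntegrable x y)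
    (hF.intervalIntegrable y z), intervalIntegral.integral_congr (g := fun _ => 0) (a := y) (b := z)
      fun r hr => h r (by rw [uIcc_of_le hyz] at hr; exact hr.1)]
  simp

/-- The energy estimate with a constant which does not depend on the outer radius. -/
theorem ene (hb : HP (2 * N + 2) b) (hch : HP (2 * N + 3) ch) (hh : HP (2 * N + 2) h)
    (hf : ContDiff ℝ ∞ f) {M0 a0 x y : ℝ} (B : ℝ) (hxy : x ≤ y)
    (hp : ∀ r, x ≤ r → EPos f b ch M0 a0 r) : ∃ c1, 0 < c1 ∧ ∀ z, y + 1 ≤ z → ∀ χ : ℝ → ℝ,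
      ContDiff ℝ ∞ χ → (∀ r, 0 ≤ χ r) → χ x = 0 → χ z = 0 →
      ∃ c2 C dl : ℝ, 0 < c2 ∧ 0 ≤ C ∧ 0 < dl ∧ ∀ M a : ℝ, |M - M0| < dl → |a - a0| < dl →
      ∀ (S : Type) [NormedAddCommGroup S] [InnerProductSpace ℂ S] (G : Ang S),
      G.Is → |G.s| ≤ B → ∀ k τ : ℝ, |k| ≤ B → |τ| ≤ B → ∀ (om m : ℝ) (u H : ℝ → S), G.Md m u →
      Continuous H → c1 * (∫ r in x..y, χ r * (lam om m ^ (N + 1) * d1 G om m u r)) +
        c2 * (∫ r in x..z, χ r * (lam om m ^ (N + 1) * d1 G om m u r)) ≤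
        -(∫ r in x..z, χ r *
          ri (H r) (X (b M a r om m) (ch M a r om m) (h M a r om m) (u r) (deriv u r))) +
        C * ∫ r in x..z, Er G N f k τ M a om m u H r := by
  obtain ⟨c1, hc1, H1⟩ := gen hb hch hh hf B (show x ≤ y + 1 by linarith) fun r hr => hp r hr.1
  refine ⟨c1 / 2, half_pos hc1, fun z hz χ hχ χ0 χx χz => ?_⟩
  have hxz : x ≤ z := by linarith
  obtain ⟨c2, hc2, H2⟩ := gen hb hch hh hf B hxz fun r hr => hp r hr.1
  obtain ⟨κ, hκ, κ0, κ1, κ2, κ3, -⟩ := step (show y < y + 1 by linarith)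
  obtain ⟨C1, d1', hC1, hd1, H1⟩ := H1 (fun r => χ r * (1 - κ r))
    (hχ.mul (contDiff_const.sub hκ)) (fun r => mul_nonneg (χ0 r) (sub_nonneg.2 (κ3 r)))
    (by simp [χx]) (by simp [κ1 _ le_rfl])
  obtain ⟨C2, d2', hC2, hd2, H2⟩ := H2 (fun r => χ r * κ r) (hχ.mul hκ)
    (fun r => mul_nonneg (χ0 r) (κ2 r)) (by simp [χx]) (by simp [χz])
  refine ⟨min (c1 / 2) c2, C1 + C2, min d1' d2', lt_min (half_pos hc1) hc2, by linarith,
    lt_min hd1 hd2, fun M a hM ha S _ _ G hG hs k τ hk hτ om m u H hu hH => ?_⟩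
  have a1 := H1 M a (hM.trans_le (min_le_left _ _)) (ha.trans_le (min_le_left _ _)) S G hG hs k τ
    hk hτ om m u H hu hH
  have a2 := H2 M a (hM.trans_le (min_le_right _ _)) (ha.trans_le (min_le_right _ _)) S G hG hs k τ
    hk hτ om m u H hu hH
  have k1 := (cont_d1 hG hu.1 om m).const_mul (lam om m ^ (N + 1))
  have k2 := cont_ri hH (cont_X hb hch hh hG hu.1 M a om m)
  have k3 := cont_Er hG hu.1 hH hf.continuous N k τ M a om m
  have n1 : ∀ r, 0 ≤ lam om m ^ (N + 1) * d1 G om m u r := fun r =>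
    mul_nonneg (by unfold lam; positivity) (d1_nonneg om m u r)
  have n3 := Er_nonneg (G := G) N f k τ M a om m u H
  generalize Er G N f k τ M a om m u H = E at *
  obtain ⟨F, eF⟩ : ∃ F : ℝ → ℝ, ∀ r, lam om m ^ (N + 1) * d1 G om m u r = F r := ⟨_, fun _ => rfl⟩
  obtain ⟨Y, eY⟩ : ∃ Y : ℝ → ℝ, ∀ r, ri (H r) (X (b M a r om m) (ch M a r om m) (h M a r om m)
    (u r) (deriv u r)) = Y r := ⟨_, fun _ => rfl⟩
  simp only [eF, eY] at a1 a2 k1 k2 n1 ⊢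
  have kχ := hχ.continuous
  have kκ := hκ.continuous
  have sp : ∀ Y : ℝ → ℝ, Continuous Y → ∫ r in x..z, χ r * Y r =
      (∫ r in x..(y + 1), χ r * (1 - κ r) * Y r) + ∫ r in x..z, χ r * κ r * Y r := fun Y hY => by
    rw [int_cut (by fun_prop) hz fun r hr => by simp [κ1 r hr], ← intervalIntegral.integral_add
      (Continuous.intervalIntegrable (by fun_prop) _ _)
      (Continuous.intervalIntegrable (by fun_prop) _ _)]
    exact intervalIntegral.integral_congr fun r _ => by ring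
  have b1 : ∫ r in x..(y + 1), E r ≤ ∫ r in x..z, E r :=
    intervalIntegral.integral_mono_interval le_rfl (by linarith) hz (Eventually.of_forall n3)
      (k3.intervalIntegrable _ _)
  have q1 : ∀ r, 0 ≤ χ r * (1 - κ r) * F r := fun r =>
    mul_nonneg (mul_nonneg (χ0 r) (sub_nonneg.2 (κ3 r))) (n1 r)
  have b2 : ∫ r in x..y, χ r * F r ≤ ∫ r in x..(y + 1), χ r * (1 - κ r) * F r := by
    rw [intervalIntegral.integral_congr (g := fun r => χ r * (1 - κ r) * F r) fun r hr => by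
      rw [uIcc_of_le hxy] at hr; simp [κ0 r hr.2]]
    exact intervalIntegral.integral_mono_interval le_rfl hxy (by linarith)
      (Eventually.of_forall q1) (Continuous.intervalIntegrable (by fun_prop) _ _)
  have b3 : 0 ≤ ∫ r in x..(y + 1), χ r * (1 - κ r) * F r :=
    intervalIntegral.integral_nonneg (by linarith) fun r _ => q1 r
  have b4 : 0 ≤ ∫ r in x..z, χ r * κ r * F r :=
    intervalIntegral.integral_nonneg hxz fun r _ => mul_nonneg (mul_nonneg (χ0 r) (κ2 r)) (n1 r)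
  rw [sp F k1, sp Y k2]
  linarith [mul_le_mul_of_nonneg_left b1 hC1, mul_le_mul_of_nonneg_left b2 (half_pos hc1).le,
    mul_le_mul_of_nonneg_right (min_le_left (c1 / 2) c2) b3,
    mul_le_mul_of_nonneg_right (min_le_right (c1 / 2) c2) b4]

/-- The energy of a multiplier which is timelike off the forbidden zone. -/
theorem pos_of {M a r : ℝ} (hD : 0 < De M a r) (hf : 0 < f (M, a, r))
    (hs : a ^ 2 < f (M, a, r) * (2 * (r ^ 2 + a ^ 2) - De M a r * f (M, a, r)))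
    (h : ∀ o n : ℝ, o ^ 2 + n ^ 2 = 1 → De M a r * el a o n ≤ K a r o n ^ 2 →
      0 < ch M a r o n * K a r o n ∧
      2 * b M a r o n * K a r o n ^ 2 < De M a r * ch M a r o n * K a r o n) :
    EPos f b ch M a r := fun o n hu => by
  rcases lt_or_ge (K a r o n ^ 2) (De M a r * el a o n) with k | k
  · obtain ⟨μ, c, hc, P⟩ := ene_forb hD (el_nonneg a o n) k
    exact ⟨μ, c, hc, EP_iff.2 P⟩
  · obtain ⟨h1, h2⟩ := h o n hu k
    obtain ⟨μ, c, hc, P⟩ := ene_time (l := el a o n) (right_ne_zero_of_mul h1.ne') hf hs h1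
      (sub_pos.2 h2)
    exact ⟨μ, c, hc, EP_iff.2 P⟩

/-- The multiplier K on the exterior. -/
theorem pos_K {M a r : ℝ} (j : ℕ) (hr : 0 < r) (hD : 0 < De M a r) (hf : 0 < f (M, a, r))
    (hs : a ^ 2 < f (M, a, r) * (2 * (r ^ 2 + a ^ 2) - De M a r * f (M, a, r))) :
    EPos f (fun _ _ _ _ _ => 0) (fun _ a r om m => (om ^ 2 + m ^ 2) ^ j * K a r om m) M a r :=
  pos_of hD hf hs fun o n hu k => by
    have k0 : K a r o n ≠ 0 := fun e => by
      have := mul_pos hD (el_pos hu hr (by rw [e, mul_zero]))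
      rw [e] at k; linarith
    have k1 := mul_self_pos.2 k0
    simp only [hu, one_pow, one_mul, mul_zero, zero_mul]
    exact ⟨k1, by rw [mul_assoc]; exact mul_pos hD k1⟩

/-- The multiplier of the symbol lemma, near and far. -/
theorem pos_out {M0 a0 R1 R2 r0 ra rb c δ : ℝ} {be g : ℝ × ℝ × ℝ → ℝ} {mu : Fm} {Sf : ℝ → ℝ → ℝ}
    (ha : |a0| < M0) (H : Out M0 a0 be g f R1 R2 N b ch h mu Sf r0 ra rb c δ) (h12 : R1 ≤ R2)
    (hF : ∀ R, R2 ≤ R → Far M0 a0 be g f R1 R) {r : ℝ} (hr : r0 ≤ r) : EPos f b ch M0 a0 r := by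
  rcases le_total r R2 with k | k
  · refine fun o n hu => ⟨mu M0 a0 r o n, c, H.cpos, fun x s L h1 h2 => ?_⟩
    have := H.energy M0 a0 (by simpa using H.dpos) (by simpa using H.dpos) o n r ⟨hr, k⟩ x s L h1 h2
    rwa [hu, one_pow, mul_one] at this
  · have F := hF r k
    have r1 : rp M0 a0 < r := by linarith [H.ord.2.2.1, H.ord.2.2.2.1, H.ord.2.2.2.2]
    have hD := De_pos ha r1
    have m : r ∈ Icc (R1 - 2) r := ⟨by linarith, le_rfl⟩
    refine pos_of hD (F.slope r ⟨r1.le, le_rfl⟩).1 (F.slope r ⟨r1.le, le_rfl⟩).2 fun o n hu k' => ?_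
    have a1 := (F.dir r m o n hu).2 k'
    have a2 := mul_nonneg (F.pos r m).1.le (sq_nonneg (K a0 r o n))
    have a3 : 0 < Sf o n := by
      have := H.low o n
      rw [hu, one_pow, mul_one] at this
      exact H.cpos.trans_le this
    obtain ⟨e1, e2, -⟩ := H.far M0 a0 r o n (h12.trans k)
    rw [e1, e2]
    exact ⟨by nlinarith [mul_pos a3 (show 0 < be (M0, a0, r) * K a0 r o n ^ 2 + o * K a0 r o n by
      linarith)], by nlinarith [mul_pos (mul_pos a3 hD) (sub_pos.2 a1)]⟩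

end Vale.Agent.P354ME
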