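import Vale.Agent.P354RP.Id
import Vale.Agent.P354XH.Main

/-!
The vector form of a positive symbol, the angular bounds, and the uniform choice of the
Lagrangian multiplier of the energy.
-/

open scoped ContDiff InnerProductSpace ComplexConjugate
open Complex (I)
open Set Filter Topology
open Vale.Agent.P354BF Vale.Agent.P354XN Vale.Agent.P354RP Vale.Agent.P354XH

noncomputable section

namespace Vale.Agent.P354ME

theorem pos_hom {c α β γ g u v l : ℝ} (h : Pos c α β γ g u v l) (hl : 0 ≤ l) (x s t L : ℝ)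
    (h1 : l * t ^ 2 ≤ L) (h2 : s ^ 2 ≤ L) : c * (x ^ 2 + t ^ 2 + L) ≤
      α * x ^ 2 + 2 * β * x * t + γ * t ^ 2 + g * L + s * (u * x + v * t) := by
  have key : ∀ t L : ℝ, t ≠ 0 → l * t ^ 2 ≤ L → s ^ 2 ≤ L → c * (x ^ 2 + t ^ 2 + L) ≤
      α * x ^ 2 + 2 * β * x * t + γ * t ^ 2 + g * L + s * (u * x + v * t) := by
    intro t L ht h1 h2
    have t2 : 0 < t ^ 2 := by positivity
    have a1 := mul_le_mul_of_nonneg_left (h (x / t) (s / t) (L / t ^ 2) ((le_div_iff₀ t2).2 h1)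
      (by rw [div_pow]; gcongr)) t2.le
    have e1 : t ^ 2 * (c * ((x / t) ^ 2 + 1 + L / t ^ 2)) = c * (x ^ 2 + t ^ 2 + L) := by
      field_simp
    have e2 : t ^ 2 * qf α β γ g u v (x / t) (s / t) (L / t ^ 2) =
        α * x ^ 2 + 2 * β * x * t + γ * t ^ 2 + g * L + s * (u * x + v * t) := by
      unfold qf; field_simp
    rwa [e1, e2] at a1
  by_cases ht : t = 0
  · subst ht
    have hL : 0 ≤ L := (sq_nonneg s).trans h2
    have c0 : Continuous fun t : ℝ => α * x ^ 2 + 2 * β * x * t + γ * t ^ 2 + g * (L + l * t ^ 2) +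
        s * (u * x + v * t) - c * (x ^ 2 + t ^ 2 + (L + l * t ^ 2)) := by fun_prop
    have a1 := ge_of_tendsto (b := (0 : ℝ)) ((c0.tendsto 0).mono_left
      (nhdsWithin_le_nhds (s := {0}ᶜ))) (by
        filter_upwards [self_mem_nhdsWithin] with t ht
        exact sub_nonneg.2 (key t _ ht (by linarith)
          (by linarith [mul_nonneg hl (sq_nonneg t)])))
    linarith
  · exact key t L ht h1 h2

variable {S : Type} [NormedAddCommGroup S] [InnerProductSpace ℂ S] {A : Ang S}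

theorem nsq_add (u v : S) : ‖u + v‖ ^ 2 = ‖u‖ ^ 2 + 2 * ri u v + ‖v‖ ^ 2 := by
  rw [← ri_self (u + v), ri_add, ri_add_l, ri_add_l, ri_self, ri_self, ri_comm v u]; ring

theorem nsq_sub (u v : S) : ‖u - v‖ ^ 2 = ‖u‖ ^ 2 - 2 * ri u v + ‖v‖ ^ 2 := by
  rw [← ri_self (u - v), ri_sub, ri_sub_l, ri_sub_l, ri_self, ri_self, ri_comm v u]; ring

theorem nsq_real (c : ℝ) (u : S) : ‖(c : ℂ) • u‖ ^ 2 = c ^ 2 * ‖u‖ ^ 2 := by
  rw [norm_real, mul_pow, sq_abs]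

/-- The vector form of a positive symbol. -/
theorem vec {c α β γ g u v l : ℝ} (hc : 0 < c) (h : Pos c α β γ g u v l) (hl : 0 ≤ l) (p σ y : S)
    {L : ℝ} (h1 : l * ‖y‖ ^ 2 ≤ L) (h2 : ‖σ‖ ^ 2 ≤ L) : c / 2 * (‖p‖ ^ 2 + ‖y‖ ^ 2 + L) ≤
      α * ‖p‖ ^ 2 + 2 * β * ri p y + γ * ‖y‖ ^ 2 + g * L + u * ri σ p + v * ri σ y := by
  have a0 := pos_hom h hl 1 0 0 0 (by simp) (by simp)
  obtain ⟨E, hE⟩ : ∃ E, E = α - c / 2 := ⟨_, rfl⟩
  have E0 : 0 < E := by linarith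
  have hL : 0 ≤ L := (sq_nonneg _).trans h2
  have sc : ∀ s : ℝ, s ^ 2 = ‖σ‖ ^ 2 → (2 * β * ‖y‖ + u * s) ^ 2 ≤
      4 * E * ((γ - c / 2) * ‖y‖ ^ 2 + v * (s * ‖y‖) + (g - c / 2) * L) := fun s hs => by
    obtain ⟨x, hx⟩ : ∃ x, 2 * E * x = -(2 * β * ‖y‖ + u * s) :=
      ⟨-(2 * β * ‖y‖ + u * s) / (2 * E), by field_simp⟩
    have a1 := pos_hom (h.mono (half_le_self hc.le)) hl x s ‖y‖ L h1 (hs.trans_le h2)
    have a2 : 0 ≤ E * x ^ 2 + x * (2 * β * ‖y‖ + u * s) +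
        ((γ - c / 2) * ‖y‖ ^ 2 + v * (s * ‖y‖) + (g - c / 2) * L) := by rw [hE]; linarith
    have a3 := mul_nonneg (show 0 ≤ 4 * E by linarith) a2
    have a4 : 4 * E * (E * x ^ 2 + x * (2 * β * ‖y‖ + u * s)) = -(2 * β * ‖y‖ + u * s) ^ 2 := by
      linear_combination (2 * E * x + (2 * β * ‖y‖ + u * s)) * hx
    linarith
  have b1 := sc ‖σ‖ rfl
  have b2 := sc (-‖σ‖) (by ring)
  have b3 := ri_le σ y
  have b4 := le_ri σ y
  have b5 := sq_nonneg ‖((2 * E : ℝ) : ℂ) • p + (((2 * β : ℝ) : ℂ) • y + (u : ℂ) • σ)‖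
  simp only [nsq_add, nsq_real, ri_add, ri_real, ri_real_l, ri_comm p σ, ri_comm y σ] at b5
  have b6 : 4 * β ^ 2 * ‖y‖ ^ 2 + 4 * β * u * ri σ y + u ^ 2 * ‖σ‖ ^ 2 ≤
      4 * E * ((γ - c / 2) * ‖y‖ ^ 2 + v * ri σ y + (g - c / 2) * L) := by
    rcases le_total 0 (E * v - β * u) with k | k
    · nlinarith [mul_le_mul_of_nonneg_left b4 k]
    · nlinarith [mul_le_mul_of_nonpos_left b3 k]
  have b7 : 0 ≤ 4 * E * (E * ‖p‖ ^ 2 + 2 * β * ri p y + u * ri σ p +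
      ((γ - c / 2) * ‖y‖ ^ 2 + v * ri σ y + (g - c / 2) * L)) := by linarith
  have b8 := nonneg_of_mul_nonneg_right b7 (show 0 < 4 * E by linarith)
  rw [hE] at b8
  linarith

variable (A) in
/-- The operator c sin^2 - m. -/
def sg (c m : ℝ) (u : S) : S := (c : ℂ) • (u - A.w 2 (A.w 2 u)) - (m : ℂ) • u

theorem ri_w (h : A.Is) (i : Fin 3) (u v : S) : ri (A.w i u) v = ri u (A.w i v) := by
  rw [ri, h.symm, ri]

theorem ri_I_sg (h : A.Is) (c m : ℝ) (u : S) : ri (I • sg A c m u) u = 0 := by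
  have e : ri (I • A.w 2 (A.w 2 u)) u = 0 := by
    rw [← map_smul, ri_w h, ri_I_self]
  have e1 : I • sg A c m u =
      (c : ℂ) • I • u - (c : ℂ) • I • A.w 2 (A.w 2 u) - (m : ℂ) • I • u := by
    rw [sg]; module
  rw [e1, ri_sub_l, ri_sub_l, ri_real_l, ri_real_l, ri_real_l, e, ri_I_self]; ring

theorem el_sg (h : A.Is) (c m : ℝ) (u : S) :
    max (|m| - |c|) 0 ^ 2 * ‖u‖ ^ 2 ≤ ‖sg A c m u‖ ^ 2 := by
  have b1 : ‖u - A.w 2 (A.w 2 u)‖ ≤ ‖u‖ := by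
    have e1 := nsq_sub u (A.w 2 (A.w 2 u))
    rw [← ri_w h 2 u, ri_self] at e1
    have e4 := h.w_le 2 (A.w 2 u)
    have : ‖u - A.w 2 (A.w 2 u)‖ ^ 2 ≤ ‖u‖ ^ 2 := by
      nlinarith [norm_nonneg (A.w 2 (A.w 2 u)), norm_nonneg (A.w 2 u)]
    exact (pow_le_pow_iff_left₀ (norm_nonneg _) (norm_nonneg _) two_ne_zero).1 this
  have b2 : max (|m| - |c|) 0 * ‖u‖ ≤ ‖sg A c m u‖ := by
    have e1 := norm_sub_norm_le ((m : ℂ) • u) ((c : ℂ) • (u - A.w 2 (A.w 2 u)))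
    rw [norm_sub_rev, norm_real, norm_real] at e1
    rcases max_cases (|m| - |c|) 0 with ⟨e, _⟩ | ⟨e, _⟩ <;> rw [e]
    · unfold sg; nlinarith [abs_nonneg c]
    · simp
  rw [← mul_pow]
  exact pow_le_pow_left₀ (mul_nonneg (le_max_right _ _) (norm_nonneg u)) b2 2

theorem ell_eq (h : A.Is) (k a om m : ℝ) (u : S) : ell A k a om m u =
    An A u + (a * om) ^ 2 * (‖u‖ ^ 2 - ‖A.w 2 u‖ ^ 2) - 2 * (a * om) * m * ‖u‖ ^ 2 +
      2 * k * (a * om) * ri u (A.w 2 u) := by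
  have e : ⟪u, A.lop k a om m u⟫_ℂ = ((An A u + (a * om) ^ 2 * (‖u‖ ^ 2 - ‖A.w 2 u‖ ^ 2) -
      2 * (a * om) * m * ‖u‖ ^ 2 + 2 * k * (a * om) * ri u (A.w 2 u) : ℝ) : ℂ) := by
    rw [h.lop_form, An, ri]; push_cast; ring
  rw [ell, ri, e, Complex.ofReal_re]

theorem sg_le (h : A.Is) (c m : ℝ) (u : S) (hu : A.L 2 u = (I * m) • u) :
    ‖sg A c m u‖ ^ 2 ≤ An A u + c ^ 2 * (‖u‖ ^ 2 - ‖A.w 2 u‖ ^ 2) - 2 * c * m * ‖u‖ ^ 2 -
      2 * c * A.s * ri u (A.w 2 u) := by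
  obtain ⟨z, hz⟩ : ∃ z, z = A.w 2 u := ⟨_, rfl⟩
  have e1 := congrArg (fun x => ri x (I • z)) (h.spin u)
  have e3 := h.w_sq z
  have e0 : (-(I * A.s) : ℂ) • u = ((-A.s : ℝ) : ℂ) • I • u := by push_cast; module
  have e2 : A.L 2 u = (m : ℂ) • I • u := by rw [hu]; module
  simp only [Fin.sum_univ_three, ri_add_l, ri_w h, map_smul, e0, ri_real_l, ri_II] at e1 e3
  have n0 := sq_nonneg ‖A.L 0 u + (c : ℂ) • I • A.w 0 z‖
  have n1 := sq_nonneg ‖A.L 1 u + (c : ℂ) • I • A.w 1 z‖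
  have n2 : ‖sg A c m u‖ ^ 2 = ‖A.L 2 u + (c : ℂ) • I • (A.w 2 z - u)‖ ^ 2 := by
    have : A.L 2 u + (c : ℂ) • I • (A.w 2 z - u) = -(I • sg A c m u) := by
      rw [e2, sg, hz]; module
    rw [this, norm_neg, norm_I]
  have n3 : ri (A.L 2 u) (I • u) = m * ‖u‖ ^ 2 := by rw [e2, ri_real_l, ri_II, ri_self]
  have n4 : ri u (A.w 2 z) = ‖z‖ ^ 2 := by rw [← ri_w h, ← hz, ri_self]
  rw [nsq_add, nsq_real, norm_I, ri_real] at n0 n1 n2
  rw [nsq_sub, smul_sub, ri_sub, n3, ri_comm _ u, n4] at n2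
  rw [An, Fin.sum_univ_three, ← hz, n2]
  linear_combination n0 + n1 + 2 * c * e1 + c ^ 2 * e3

/-- The angular form with the correction of first order. -/
theorem ang (h : A.Is) {B : ℝ} (k a om m : ℝ) (hs : |A.s| ≤ B) (hk : |k| ≤ B) (u : S)
    (hu : A.L 2 u = (I * m) • u) :
    ‖sg A (a * om) m u‖ ^ 2 ≤ ell A k a om m u + 4 * B * |a * om| * ‖u‖ ^ 2 ∧
    An A u ≤ ell A k a om m u + 4 * B * |a * om| * ‖u‖ ^ 2 + |a| * (om ^ 2 + m ^ 2) * ‖u‖ ^ 2 := by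
  have b1 : |ri u (A.w 2 u)| ≤ ‖u‖ ^ 2 := h.w_re_le 2 u
  have b2 : ∀ q : ℝ, |q| ≤ B → |q * (a * om) * ri u (A.w 2 u)| ≤ B * |a * om| * ‖u‖ ^ 2 :=
    fun q hq => by
      rw [abs_mul, abs_mul]
      have := (abs_nonneg q).trans hq
      gcongr
  have b3 := abs_le.1 (b2 k hk)
  have b4 := abs_le.1 (b2 _ hs)
  have b5 := sg_le h (a * om) m u hu
  have b6 := h.w_le 2 u
  have b7 : 0 ≤ (a * om) ^ 2 * (‖u‖ ^ 2 - ‖A.w 2 u‖ ^ 2) :=
    mul_nonneg (sq_nonneg _) (by nlinarith [norm_nonneg (A.w 2 u)])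
  have b8 : 2 * (a * om) * m ≤ |a| * (om ^ 2 + m ^ 2) := by
    rcases abs_cases a with ⟨e, k⟩ | ⟨e, k⟩ <;> rw [e]
    · nlinarith [mul_nonneg k (sq_nonneg (om - m))]
    · nlinarith [mul_nonneg (neg_nonneg.2 k.le) (sq_nonneg (om + m))]
  have b9 := mul_le_mul_of_nonneg_right b8 (sq_nonneg ‖u‖)
  rw [ell_eq h]
  constructor <;> linarith

/-- Positivity of the energy with given constants in one direction. -/
def EP (c μ : ℝ) (f : ℝ × ℝ × ℝ → ℝ) (b ch : Fm) (M a r o n : ℝ) : Prop :=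
  ∀ x s L : ℝ, el a o n ≤ L → s ^ 2 ≤ L →
    c * (x ^ 2 + 1 + L) ≤ En f b ch (fun _ _ _ _ _ => μ) M a r o n x s L

/-- Positivity of the energy at the radius r. -/
def EPos (f : ℝ × ℝ × ℝ → ℝ) (b ch : Fm) (M a r : ℝ) : Prop :=
  ∀ o n : ℝ, o ^ 2 + n ^ 2 = 1 → ∃ μ c : ℝ, 0 < c ∧ EP c μ f b ch M a r o n

variable {f : ℝ × ℝ × ℝ → ℝ} {b ch : Fm} {d e : ℕ}

theorem EP_iff {c μ M a r o n : ℝ} : EP c μ f b ch M a r o n ↔
    PEv c (De M a r) (K a r o n) (r ^ 2 + a ^ 2) (f (M, a, r)) a (b M a r o n) (ch M a r o n) μ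
      (el a o n) := by
  refine forall₃_congr fun x s L => imp_congr_right fun _ => imp_congr_right fun _ => ?_
  rw [show En f b ch (fun _ _ _ _ _ => μ) M a r o n x s L = _ from
    zE_eq (f := f) (b := b) (ch := ch) (mu := fun _ _ _ _ _ => μ) ((M, a, r), o, n) x s L]
  rfl

theorem EP_near (hb : HP d b) (hch : HP e ch) (hf : Continuous f) {μ : ℝ → ℝ}
    (hμ : ContDiff ℝ ∞ μ) {c M a r o n : ℝ} (hc : 0 < c) (h : EP c (μ r) f b ch M a r o n) :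
    ∀ᶠ z : Z in 𝓝 ((M, a, r), o, n),
      EP (c / 2) (μ z.1.2.2) f b ch z.1.1 z.1.2.1 z.1.2.2 z.2.1 z.2.2 :=
  E_on (z0 := ((M, a, r), o, n)) hb hch (HP.const (sr hμ)) hf hc (EP_iff.1 h)

/-- A smooth Lagrangian multiplier with bounds, for all directions and all near parameters. -/
theorem unif (hb : HP d b) (hch : HP e ch) (hf : Continuous f) {M0 a0 x y : ℝ}
    (h : ∀ r ∈ Icc x y, EPos f b ch M0 a0 r) : ∃ c, 0 < c ∧ ∀ᶠ p : ℝ × ℝ in 𝓝 (M0, a0),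
      ∀ o n : ℝ, o ^ 2 + n ^ 2 = 1 → ∃ μ : ℝ → ℝ, ContDiff ℝ ∞ μ ∧ ∀ r ∈ Icc x y,
        EP c (μ r) f b ch p.1 p.2 r o n ∧ c * |μ r| ≤ 1 ∧ c * |deriv μ r| ≤ 1 ∧
          c * |deriv (deriv μ) r| ≤ 1 := by
  have mono : ∀ {c c' μ M a r o n : ℝ}, c' ≤ c → EP c μ f b ch M a r o n →
      EP c' μ f b ch M a r o n := fun hc H => EP_iff.2 ((EP_iff.1 H).mono hc)
  obtain ⟨c, hc, V, hV, H⟩ := glob Ci_compact (w0 := ((M0, a0) : ℝ × ℝ))
    (P := fun c q => ∃ μ : ℝ → ℝ, ContDiff ℝ ∞ μ ∧ ∀ r ∈ Icc x y,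
      EP c (μ r) f b ch q.2.1 q.2.2 r q.1.1 q.1.2 ∧ c * |μ r| ≤ 1 ∧ c * |deriv μ r| ≤ 1 ∧
        c * |deriv (deriv μ) r| ≤ 1) (fun c c' q _ hc ⟨μ, hμ, H⟩ => ⟨μ, hμ, fun r hr =>
      ⟨mono hc (H r hr).1,
        (mul_le_mul_of_nonneg_right hc (abs_nonneg _)).trans (H r hr).2.1,
        (mul_le_mul_of_nonneg_right hc (abs_nonneg _)).trans (H r hr).2.2.1,
        (mul_le_mul_of_nonneg_right hc (abs_nonneg _)).trans (H r hr).2.2.2⟩⟩) fun t ht => by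
      obtain ⟨μ, hμ, H⟩ := sel (P := fun r μ => ∃ c, 0 < c ∧ EP c μ f b ch M0 a0 r t.1 t.2)
        (x0 := x) (x1 := y) (fun r => by
          rintro μ1 ⟨c1, h1, P1⟩ μ2 ⟨c2, h2, P2⟩ s t hs ht hst
          refine ⟨min c1 c2, lt_min h1 h2, EP_iff.2 ?_⟩
          refine (Pos.comb (EP_iff.1 P1) (EP_iff.1 P2) hs ht hst).of_eq (le_of_eq ?_) ?_ ?_ rfl ?_
            ?_ <;> rw [eq_sub_of_add_eq hst] <;> simp only [smul_eq_mul, sub_mul, one_mul] <;>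
            ring) fun r hr => by
          obtain ⟨μ, c, hc, P⟩ := h r hr t.1 t.2 ht
          exact ⟨μ, ((by fun_prop : ContinuousAt (fun s : ℝ => (((M0, a0, s), t.1, t.2) : Z))
            r).eventually (EP_near (μ := fun _ => μ) hb hch hf contDiff_const hc P)).mono
              fun s hs => ⟨c / 2, half_pos hc, hs⟩⟩
      obtain ⟨c, hc, W, hW, H2⟩ := glob (isCompact_Icc (a := x) (b := y))
        (w0 := ((t, M0, a0) : (ℝ × ℝ) × ℝ × ℝ))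
        (P := fun c q => EP c (μ q.1) f b ch q.2.2.1 q.2.2.2 q.1 q.2.1.1 q.2.1.2)
        (fun c c' q _ hc H => mono hc H) fun r hr => by
          obtain ⟨c, hc, P⟩ := H r hr
          exact ⟨c / 2, half_pos hc, (by fun_prop : ContinuousAt
            (fun q : ℝ × (ℝ × ℝ) × ℝ × ℝ => (((q.2.2.1, q.2.2.2, q.1), q.2.1.1, q.2.1.2) : Z))
              (r, t, M0, a0)).eventually (EP_near hb hch hf hμ hc P)⟩
      obtain ⟨C0, p0, b0⟩ := upper (isCompact_Icc (a := x) (b := y)) hμ.continuous.continuousOn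
      obtain ⟨C1, p1, b1⟩ := upper (isCompact_Icc (a := x) (b := y)) (cd hμ).continuousOn
      obtain ⟨C2, p2, b2⟩ := upper (isCompact_Icc (a := x) (b := y)) (cd (sd hμ)).continuousOn
      have k : ∀ q : ℝ, q ≤ C0 + C1 + C2 → 0 ≤ q → min c (C0 + C1 + C2)⁻¹ * q ≤ 1 := fun q h1 h2 =>
        (mul_le_mul (min_le_right _ _) h1 h2 (by positivity)).trans_eq
          (inv_mul_cancel₀ (by positivity))
      exact ⟨min c (C0 + C1 + C2)⁻¹, lt_min hc (by positivity), H2.mono fun w hw => ⟨μ, hμ,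
        fun r hr => ⟨mono (min_le_left _ _) (hw r (subset_of_mem_nhdsSet hW hr)),
          k _ (by linarith [b0 r hr]) (abs_nonneg _), k _ (by linarith [b1 r hr]) (abs_nonneg _),
          k _ (by linarith [b2 r hr]) (abs_nonneg _)⟩⟩⟩
  exact ⟨c, hc, H.mono fun p hp o n hu => hp (o, n) (subset_of_mem_nhdsSet hV hu)⟩

end Vale.Agent.P354ME
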