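import Vale.Agent.P354ME.Vec
import Vale.Agent.P354XT.Mode

/-!
The energy estimate at one radius.
-/

open scoped ContDiff InnerProductSpace ComplexConjugate
open Complex (I)
open Set Filter Topology
open Vale.Agent.P354BF Vale.Agent.P354XN Vale.Agent.P354RP Vale.Agent.P354XH
open Vale.Agent.P354XT (Nc lam d1)

noncomputable section

namespace Vale.Agent.P354ME

variable {S : Type} [NormedAddCommGroup S] [InnerProductSpace ℂ S] {G : Ang S}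

theorem Nc_eq (f : ℝ → ℝ) (M a om m : ℝ) (u : ℝ → S) (r : ℝ) : Nc G f M a om m u r =
    ((2 * (r ^ 2 + a ^ 2 - f r * De M a r) : ℝ) : ℂ) • deriv u r +
      ((2 * (f r * K a r om m) : ℝ) : ℂ) • I • u r -
      ((2 * a : ℝ) : ℂ) • I • sg G (a * om) m (u r) := by
  rw [Nc, Kf_real, sg]; push_cast; module

theorem young {c : ℝ} (hc : 0 < c) (k x y : ℝ) : k * x * y ≤ c / 4 * x ^ 2 + k ^ 2 / c * y ^ 2 := by
  have e : c * (c / 4 * x ^ 2 + k ^ 2 / c * y ^ 2 - k * x * y) = (c / 2 * x - k * y) ^ 2 := by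
    field_simp; ring
  have := nonneg_of_mul_nonneg_right (e ▸ sq_nonneg _) hc
  linarith

theorem norm_X {β b ch h t : ℝ} (ht : 0 ≤ t) (hb : |b| ≤ β) (hc : |ch| ≤ β) (hh : |h| ≤ β)
    (u u1 : S) : ‖X b (t * ch) h u u1‖ ≤ 2 * β * ‖u1‖ + 2 * β * (t * ‖u‖) + β * ‖u‖ := by
  refine (norm_add_le _ _).trans (add_le_add ((norm_sub_le _ _).trans (add_le_add ?_ ?_)) ?_)
  · rw [norm_real, abs_mul, abs_two]; gcongr
  · rw [norm_real, norm_I, abs_mul, abs_mul, abs_two, abs_of_nonneg ht]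
    calc 2 * (t * |ch|) * ‖u‖ = 2 * |ch| * (t * ‖u‖) := by ring
      _ ≤ _ := by gcongr
  · rw [norm_real]; gcongr

theorem scal {c β B κ : ℝ} (hc : 0 < c) (hβ : 0 ≤ β) (hB : 0 ≤ B) (hκ : 0 ≤ κ) :
    ∃ C, 0 ≤ C ∧ ∀ t e p u P L R d Y : ℝ, 0 ≤ L → c * (2 * (p ^ 2 + (t * u) ^ 2 + L)) ≤ Y + R →
      t ^ 2 * R ≤ t ^ 2 * (e * (2 * β * p + 2 * β * (t * u) + β * u) + 4 * κ * (u * P) +
        4 * κ * (B ^ 2 + B) * u ^ 2 + 16 * κ * B ^ 2 * (t * u) * u) →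
      d ≤ (1 + B) * (p ^ 2 + (t * u) ^ 2 + L) + u ^ 2 →
      c / (1 + B) * (t ^ 2 * d) ≤ t ^ 2 * Y + C * (t ^ 2 * e ^ 2 + t ^ 2 * u ^ 2 + P ^ 2) := by
  obtain ⟨k1, h1, e1⟩ : ∃ k, 0 ≤ k ∧ k = (2 * β) ^ 2 / c := ⟨_, by positivity, rfl⟩
  obtain ⟨k2, h2, e2⟩ : ∃ k, 0 ≤ k ∧ k = (4 * κ) ^ 2 / c := ⟨_, by positivity, rfl⟩
  obtain ⟨k3, h3, e3⟩ : ∃ k, 0 ≤ k ∧ k = (16 * κ * B ^ 2) ^ 2 / c := ⟨_, by positivity, rfl⟩
  obtain ⟨k4, h4, e4⟩ : ∃ k, 0 ≤ k ∧ k = 4 * κ * (B ^ 2 + B) := ⟨_, by positivity, rfl⟩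
  refine ⟨2 * k1 + β + k2 + k3 + k4 + c, by positivity, fun t e p u P L R d Y hL a1 a2 a3 => ?_⟩
  have t2 := sq_nonneg t
  have y1 := mul_le_mul_of_nonneg_left (young hc (2 * β) p e) t2
  have y2 := mul_le_mul_of_nonneg_left (young hc (2 * β) (t * u) e) t2
  have y3 := young hc (4 * κ) (t * (t * u)) P
  have y4 := mul_le_mul_of_nonneg_left (young hc (16 * κ * B ^ 2) (t * u) u) t2
  have y5 : β * (t ^ 2 * (e * u)) ≤ β * (t ^ 2 * (e ^ 2 + u ^ 2)) := by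
    gcongr; nlinarith [sq_nonneg (e - u), sq_nonneg e, sq_nonneg u]
  rw [← e1] at y1 y2
  rw [← e2] at y3
  rw [← e3] at y4
  rw [← e4] at a2
  have a4 := mul_le_mul_of_nonneg_left a1 t2
  have b1 : c / (1 + B) * (t ^ 2 * d) ≤
      c * (t ^ 2 * (p ^ 2 + (t * u) ^ 2 + L)) + c * (t ^ 2 * u ^ 2) := by
    have z1 : c / (1 + B) ≤ c := div_le_self hc.le (by linarith)
    have z2 := mul_le_mul_of_nonneg_right z1 (mul_nonneg t2 (sq_nonneg u))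
    calc c / (1 + B) * (t ^ 2 * d)
        ≤ c / (1 + B) * (t ^ 2 * ((1 + B) * (p ^ 2 + (t * u) ^ 2 + L) + u ^ 2)) := by gcongr
      _ = c * (t ^ 2 * (p ^ 2 + (t * u) ^ 2 + L)) + c / (1 + B) * (t ^ 2 * u ^ 2) := by
        field_simp
      _ ≤ _ := by linarith
  have q1 := mul_nonneg t2 (sq_nonneg e)
  have q2 := mul_nonneg t2 (sq_nonneg u)
  have q3 := sq_nonneg P
  have q4 := mul_nonneg hc.le (mul_nonneg t2 hL)
  have q5 := mul_nonneg hc.le (mul_nonneg t2 (sq_nonneg p))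
  have q6 := mul_nonneg hc.le (mul_nonneg t2 (sq_nonneg (t * u)))
  have := mul_nonneg h1 q2; have := mul_nonneg h1 q3; have := mul_nonneg hβ q3
  have := mul_nonneg h2 q1; have := mul_nonneg h2 q2; have := mul_nonneg h3 q1
  have := mul_nonneg h3 q3; have := mul_nonneg h4 q1; have := mul_nonneg h4 q3
  have := mul_nonneg hc.le q1; have := mul_nonneg hc.le q3
  linarith

/-- The part of the energy identity which is a derivative up to terms of order zero. -/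
def Gt (τ M a μ hW : ℝ) (u : ℝ → S) (r : ℝ) : ℝ :=
  4 * μ * ((2 * r - 2 * M) * ri (u r) (deriv u r) +
    De M a r * (ri (u r) (deriv (deriv u) r) + ‖deriv u r‖ ^ 2)) +
  (2 * hW - 4 * μ * τ * (2 * r - 2 * M)) * ri (u r) (deriv u r)

theorem pt1 (hG : G.Is) {B c t o n M a r b ch μ : ℝ} (h k τ : ℝ) {f : ℝ → ℝ} (hc : 0 < c)
    (hs : |G.s| ≤ B) (hk : |k| ≤ B) {u : ℝ → S} (hu : G.Md (t * n) u) (H : S)
    (P : PEv c (De M a r) (K a r o n) (r ^ 2 + a ^ 2) (f r) a b ch μ (el a o n)) :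
    c * (2 * (‖deriv u r‖ ^ 2 + (t * ‖u r‖) ^ 2 + (ell G k a (t * o) (t * n) (u r) +
      4 * B * |a * (t * o)| * ‖u r‖ ^ 2))) ≤
    (-ri H (X b (t * ch) h (u r) (deriv u r)) +
      Gt τ M a μ (h * (r ^ 2 + a ^ 2 - f r * De M a r)) u r) +
    (ri (H - Nc G f M a (t * o) (t * n) u r) (X b (t * ch) h (u r) (deriv u r)) -
      4 * μ * ri (u r) (G.P τ k M a (t * o : ℝ) (t * n) u r) + 4 * μ * (τ ^ 2 - τ) * ‖u r‖ ^ 2 +
      16 * μ * B * |a * (t * o)| * ‖u r‖ ^ 2) := by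
  have a1 := (ang hG k a (t * o) (t * n) hs hk (u r) (hu.2 r)).1
  have a2 := (el_sg hG (a * (t * o)) (t * n) (u r)).trans a1
  have e1 : ‖(t : ℂ) • I • u r‖ ^ 2 = (t * ‖u r‖) ^ 2 := by rw [nsq_real, norm_I, mul_pow]
  have a3 := vec hc P (el_nonneg _ _ _) (deriv u r) (I • sg G (a * (t * o)) (t * n) (u r))
    ((t : ℂ) • I • u r) (L := ell G k a (t * o) (t * n) (u r) + 4 * B * |a * (t * o)| * ‖u r‖ ^ 2)
    (by
      rw [e1]
      have := el_hom a o n t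
      unfold el at this ⊢
      rw [this] at a2; linarith) (by rw [norm_I]; exact a1)
  rw [e1] at a3
  simp only [X, Gt, Nc_eq, P_real, K_hom, ri_sub, ri_add, ri_real, ri_sub_l, ri_add_l, ri_real_l,
    ri_II, ri_I_self, ri_I_sg hG, ri_self, ell, ri_I (u r), ri_comm (I • u r) (deriv u r),
    ri_comm (deriv u r) (u r), norm_I] at a3 ⊢
  linarith

/-- The estimate at one radius. -/
theorem pt {c β B : ℝ} (hc : 0 < c) (hβ : 0 ≤ β) (hB : 0 ≤ B) : ∃ C, 0 ≤ C ∧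
    ∀ (S : Type) [NormedAddCommGroup S] [InnerProductSpace ℂ S] (G : Ang S), G.Is → |G.s| ≤ B →
    ∀ k τ t o n M a r b ch h μ : ℝ, ∀ f : ℝ → ℝ, |k| ≤ B → |τ| ≤ B → |a| ≤ B → 0 ≤ t →
      o ^ 2 + n ^ 2 = 1 → |b| ≤ β → |ch| ≤ β → |h| ≤ β → c * |μ| ≤ 1 →
      PEv c (De M a r) (K a r o n) (r ^ 2 + a ^ 2) (f r) a b ch μ (el a o n) →
      ∀ u : ℝ → S, G.Md (t * n) u → ∀ H : S,
      c / (1 + B) * (t ^ 2 * d1 G (t * o) (t * n) u r) ≤
        t ^ 2 * (-ri H (X b (t * ch) h (u r) (deriv u r)) +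
          Gt τ M a μ (h * (r ^ 2 + a ^ 2 - f r * De M a r)) u r) +
        C * (t ^ 2 * ‖H - Nc G f M a (t * o) (t * n) u r‖ ^ 2 + t ^ 2 * ‖u r‖ ^ 2 +
          ‖G.P τ k M a (t * o : ℝ) (t * n) u r‖ ^ 2) := by
  obtain ⟨C, hC, key⟩ := scal hc hβ hB (inv_pos.2 hc).le
  refine ⟨C, hC, fun S _ _ G hG hs k τ t o n M a r b ch h μ f hk hτ ha ht hon hb hch hh hμ P u hu
    H => ?_⟩
  obtain ⟨a1, a2⟩ := ang hG k a (t * o) (t * n) hs hk (u r) (hu.2 r)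
  have m1 : |μ| ≤ c⁻¹ := by rw [← one_div, le_div_iff₀' hc]; exact hμ
  have o1 : |o| ≤ 1 := abs_le_one_iff_mul_self_le_one.2 (by nlinarith [sq_nonneg n])
  have l0 : (t * o) ^ 2 + (t * n) ^ 2 = t ^ 2 := by linear_combination t ^ 2 * hon
  refine key t _ _ _ _ _ _ _ _ ((sq_nonneg _).trans a1) (pt1 hG h k τ hc hs hk hu H P)
    (mul_le_mul_of_nonneg_left ?_ (sq_nonneg t)) ?_
  · have b1 := (ri_le (H - Nc G f M a (t * o) (t * n) u r) _).trans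
      (mul_le_mul_of_nonneg_left (norm_X ht hb hch hh (u r) (deriv u r)) (norm_nonneg _))
    have b2 : |μ * ri (u r) (G.P τ k M a (t * o : ℝ) (t * n) u r)| ≤
        c⁻¹ * (‖u r‖ * ‖G.P τ k M a (t * o : ℝ) (t * n) u r‖) := by
      rw [abs_mul]; exact mul_le_mul m1 (abs_ri _ _) (abs_nonneg _) (by positivity)
    have b3 : |μ * (τ ^ 2 - τ)| ≤ c⁻¹ * (B ^ 2 + B) := by
      rw [abs_mul]
      refine mul_le_mul m1 ((abs_sub _ _).trans ?_) (abs_nonneg _) (by positivity)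
      rw [abs_pow]; gcongr
    have b4 := mul_le_mul_of_nonneg_right ((le_abs_self _).trans b3) (sq_nonneg ‖u r‖)
    have b5 : μ * (B * |a * (t * o)|) ≤ c⁻¹ * (B * (B * (t * 1))) := by
      refine mul_le_mul ((le_abs_self _).trans m1) ?_ (by positivity) (by positivity)
      rw [abs_mul, abs_mul, abs_of_nonneg ht]; gcongr
    have b6 := mul_le_mul_of_nonneg_right b5 (sq_nonneg ‖u r‖)
    linarith [(abs_le.1 b2).1]
  · rw [l0] at a2
    have b1 := mul_le_mul_of_nonneg_right ha (sq_nonneg (t * ‖u r‖))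
    have b2 := mul_nonneg hB ((sq_nonneg _).trans a1)
    have b3 := mul_nonneg hB (sq_nonneg ‖deriv u r‖)
    have e : d1 G (t * o) (t * n) u r =
        ‖deriv u r‖ ^ 2 + (1 + t ^ 2) * ‖u r‖ ^ 2 + An G (u r) := by
      rw [d1, lam, add_assoc 1, l0, An]
    rw [e]
    linarith

end Vale.Agent.P354ME
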